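import Vale.Agent.P181.GN.Defs
import Vale.Agent.P181.GN.H856.Q8b

/-!
Line GN, rows Q8 and Q8m: `EL z` is the sum over `n ≤ z` of (number of partitions of `n`) times
the number `v (z - n)` of highest weight polynomials in the coloured letters.
-/

set_option autoImplicit false

open MvPolynomial

namespace Vale.Agent.P181.GN.H787

variable {k : ℕ}

/-- plain part of a monomial -/
noncomputable def pp (v : Lt k →₀ ℕ) : Lt k →₀ ℕ := v.filter fun p => p.2 = 0

/-- coloured part of a monomial -/
noncomputable def cp (v : Lt k →₀ ℕ) : Lt k →₀ ℕ := v.filter fun p => ¬ p.2 = 0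

lemma pp_pos {v : Lt k →₀ ℕ} {p : Lt k} (h : p.2 = 0) : pp v p = v p := by
  rw [pp, Finsupp.filter_apply_pos (fun p : Lt k => p.2 = 0) v h]

lemma pp_neg {v : Lt k →₀ ℕ} {p : Lt k} (h : ¬ p.2 = 0) : pp v p = 0 := by
  rw [pp, Finsupp.filter_apply_neg (fun p : Lt k => p.2 = 0) v h]

lemma cp_pos {v : Lt k →₀ ℕ} {p : Lt k} (h : ¬ p.2 = 0) : cp v p = v p := by
  rw [cp, Finsupp.filter_apply_pos (fun p : Lt k => ¬ p.2 = 0) v h]

lemma cp_neg {v : Lt k →₀ ℕ} {p : Lt k} (h : p.2 = 0) : cp v p = 0 := by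
  rw [cp, Finsupp.filter_apply_neg (fun p : Lt k => ¬ p.2 = 0) v (not_not.mpr h)]

lemma pp_add_cp (v : Lt k →₀ ℕ) : pp v + cp v = v := Finsupp.filter_add_filter_not v _

lemma pp_add (v w : Lt k →₀ ℕ) : pp (v + w) = pp v + pp w := Finsupp.filter_add

lemma cp_add (v w : Lt k →₀ ℕ) : cp (v + w) = cp v + cp w := Finsupp.filter_add

lemma cp_cp (v : Lt k →₀ ℕ) : cp (cp v) = cp v := by
  ext p
  by_cases h : p.2 = 0
  · rw [cp_neg h, cp_neg h]
  · rw [cp_pos h]

lemma pp_pp (v : Lt k →₀ ℕ) : pp (pp v) = pp v := by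
  ext p
  by_cases h : p.2 = 0
  · rw [pp_pos h]
  · rw [pp_neg h, pp_neg h]

lemma pp_cp (v : Lt k →₀ ℕ) : pp (cp v) = 0 := by
  have h := pp_add_cp (cp v)
  rw [cp_cp] at h
  exact add_eq_right.mp h

lemma pp_of_cp {v : Lt k →₀ ℕ} (h : cp v = v) : pp v = 0 := by
  rw [← h, pp_cp]

lemma cp_of_pp {v : Lt k →₀ ℕ} (h : pp v = v) : cp v = 0 := by
  have h' := pp_add_cp v
  rw [h] at h'
  exact add_eq_left.mp h'

lemma pp_single {p : Lt k} (n : ℕ) (h : ¬ p.2 = 0) : pp (Finsupp.single p n) = 0 :=
  Finsupp.filter_single_of_neg _ h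

lemma cp_single {p : Lt k} (n : ℕ) (h : ¬ p.2 = 0) :
    cp (Finsupp.single p n) = Finsupp.single p n :=
  Finsupp.filter_single_of_pos _ h

/-- the slice of a polynomial along the plain monomial `κ` -/
noncomputable def sl (κ : Lt k →₀ ℕ) : Po k →ₗ[ℂ] Po k :=
  (basisMonomials (Lt k) ℂ).constr ℂ fun m => if pp m = κ then monomial (cp m) (1 : ℂ) else 0

lemma sl_monomial (κ m : Lt k →₀ ℕ) (c : ℂ) :
    sl κ (monomial m c) = if pp m = κ then monomial (cp m) c else 0 := by
  have h : (monomial m c : Po k) = c • (basisMonomials (Lt k) ℂ) m := by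
    rw [coe_basisMonomials, smul_monomial, smul_eq_mul, mul_one]
  rw [h, map_smul, sl, Module.Basis.constr_basis]
  split_ifs
  · rw [smul_monomial, smul_eq_mul, mul_one]
  · rw [smul_zero]

lemma coeff_sl {κ : Lt k →₀ ℕ} (hκ : pp κ = κ) (v : Lt k →₀ ℕ) (f : Po k) :
    coeff v (sl κ f) = if cp v = v then coeff (κ + v) f else 0 := by
  induction f using MvPolynomial.induction_on' with
  | monomial u a =>
    rw [sl_monomial]
    by_cases hv : cp v = v
    · rw [if_pos hv, coeff_monomial]
      by_cases hu : u = κ + v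
      · rw [if_pos hu, hu, if_pos (by rw [pp_add, hκ, pp_of_cp hv, add_zero]), coeff_monomial,
          if_pos (by rw [cp_add, cp_of_pp hκ, hv, zero_add])]
      · rw [if_neg hu]
        split_ifs with h
        · rw [coeff_monomial, if_neg]
          intro h2
          exact hu (by rw [← pp_add_cp u, h, h2])
        · rw [coeff_zero]
    · rw [if_neg hv]
      split_ifs with h
      · rw [coeff_monomial, if_neg]
        intro h2
        exact hv (by rw [← h2, cp_cp])
      · rw [coeff_zero]
  | add f g hf hg =>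
    rw [map_add, coeff_add, coeff_add, hf, hg]
    split_ifs
    · rfl
    · rw [add_zero]

lemma EU_mon (r i : Fin k) (u : Lt k →₀ ℕ) (a : ℂ) :
    EU r i (monomial u a) = ∑ p ∈ u.support,
      monomial (u - Finsupp.single p 1 +
        Finsupp.single (p.1, p.2 - Pi.single i 1 + Pi.single r 1) 1) (a * (u p * p.2 i)) := by
  rw [EU, mkDerivation_monomial, Finsupp.sum, Finset.smul_sum]
  refine Finset.sum_congr rfl fun p _ => ?_
  rw [X, smul_monomial, smul_eq_mul, monomial_mul, smul_monomial, smul_eq_mul, smul_eq_mul,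
    mul_one]

lemma succ_ne (r i : Fin k) (p : Lt k) : ¬ (p.2 - Pi.single i 1 + Pi.single r 1) = 0 := by
  intro h
  have := congrFun h r
  simp at this

lemma EU_sl (r i : Fin k) (κ : Lt k →₀ ℕ) (f : Po k) :
    EU r i (sl κ f) = sl κ (EU r i f) := by
  induction f using MvPolynomial.induction_on' with
  | monomial u a =>
    rw [EU_mon, map_sum, sl_monomial]
    have key : ∀ p ∈ u.support, sl κ (monomial (u - Finsupp.single p 1 +
        Finsupp.single (p.1, p.2 - Pi.single i 1 + Pi.single r 1) 1) (a * (u p * p.2 i))) =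
        if pp u = κ then (if p ∈ (cp u).support then monomial (cp u - Finsupp.single p 1 +
          Finsupp.single (p.1, p.2 - Pi.single i 1 + Pi.single r 1) 1)
            (a * (cp u p * p.2 i)) else 0) else (0 : Po k) := by
      intro p hp
      by_cases hp2 : p.2 = 0
      · have h0 : ((p.2 i : ℕ) : ℂ) = 0 := by rw [hp2]; simp
        rw [h0, mul_zero, mul_zero, monomial_zero, map_zero]
        have h1 : p ∉ (cp u).support := by
          rw [Finsupp.mem_support_iff, not_not]
          exact cp_neg hp2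
        rw [if_neg h1]
        split_ifs <;> rfl
      · obtain ⟨u', hu'⟩ : ∃ u', u = u' + Finsupp.single p 1 := by
          refine ⟨u - Finsupp.single p 1, (tsub_add_cancel_of_le ?_).symm⟩
          rw [Finsupp.single_le_iff]
          exact Nat.one_le_iff_ne_zero.mpr (Finsupp.mem_support_iff.mp hp)
        have h1 : p ∈ (cp u).support := by
          rw [Finsupp.mem_support_iff, cp_pos hp2]
          exact Finsupp.mem_support_iff.mp hp
        have h2 : cp u p = u p := cp_pos hp2
        rw [if_pos h1, h2, sl_monomial, hu', add_tsub_cancel_right, pp_add, pp_add,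
          pp_single _ hp2, pp_single _ (succ_ne r i p), cp_add, cp_add, cp_single _ hp2,
          cp_single _ (succ_ne r i p), add_tsub_cancel_right]
    rw [Finset.sum_congr rfl key]
    by_cases hκ : pp u = κ
    · rw [if_pos hκ, EU_mon]
      simp only [if_pos hκ]
      rw [← Finset.sum_filter]
      refine Finset.sum_congr ?_ fun p _ => rfl
      ext p
      rw [Finset.mem_filter]
      refine ⟨fun h => ⟨?_, h⟩, fun h => h.2⟩
      rw [Finsupp.mem_support_iff] at h ⊢
      intro h0
      apply h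
      by_cases hp2 : p.2 = 0
      · exact cp_neg hp2
      · rw [cp_pos hp2, h0]
    · rw [if_neg hκ, map_zero]
      simp only [if_neg hκ]
      rw [Finset.sum_const_zero]
  | add f g hf hg => rw [map_add, map_add, map_add, map_add, hf, hg]

lemma EU_plain (r i : Fin k) {κ : Lt k →₀ ℕ} (hκ : pp κ = κ) :
    EU r i (monomial κ (1 : ℂ)) = 0 := by
  rw [EU_mon]
  refine Finset.sum_eq_zero fun p hp => ?_
  have hp2 : p.2 = 0 := by
    rw [← hκ] at hp
    by_contra h
    rw [Finsupp.mem_support_iff] at hp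
    exact hp (pp_neg h)
  rw [hp2]
  simp

lemma EU_mul (r i : Fin k) {κ : Lt k →₀ ℕ} (hκ : pp κ = κ) (g : Po k) :
    EU r i (monomial κ (1 : ℂ) * g) = monomial κ 1 * EU r i g := by
  rw [Derivation.leibniz, EU_plain r i hκ, smul_zero, add_zero, smul_eq_mul]

/-- coloured monomials -/
def gV (tau : Fin k → ℕ) (e : ℕ) (v : Lt k →₀ ℕ) : Prop :=
  cp v = v ∧ xs v = e ∧ ∀ i, us v i = tau i

lemma sl_mul {κ κ' : Lt k →₀ ℕ} (hκ' : pp κ' = κ') (g : Po k)
    (hg : ∀ v, coeff v g ≠ 0 → cp v = v) :
    sl κ (monomial κ' (1 : ℂ) * g) = if κ' = κ then g else 0 := by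
  conv_lhs => rw [g.as_sum]
  rw [Finset.mul_sum, map_sum]
  have h : ∀ v ∈ g.support, sl κ (monomial κ' (1 : ℂ) * monomial v (coeff v g)) =
      if κ' = κ then monomial v (coeff v g) else 0 := by
    intro v hv
    have hv' := hg v (mem_support_iff.mp hv)
    rw [monomial_mul, one_mul, sl_monomial, pp_add, hκ', pp_of_cp hv', add_zero, cp_add,
      cp_of_pp hκ', zero_add, hv']
  rw [Finset.sum_congr rfl h]
  split_ifs
  · exact g.as_sum.symm
  · exact Finset.sum_const_zero

lemma xs_add (v w : Lt k →₀ ℕ) : xs (v + w) = xs v + xs w :=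
  Finsupp.sum_add_index' (fun p => by simp) fun p a b => by ring

lemma us_add (v w : Lt k →₀ ℕ) (i : Fin k) : us (v + w) i = us v i + us w i :=
  Finsupp.sum_add_index' (fun p => by simp) fun p a b => by ring

lemma us_plain {κ : Lt k →₀ ℕ} (hκ : pp κ = κ) (i : Fin k) : us κ i = 0 := by
  unfold us
  refine Finset.sum_eq_zero fun p hp => ?_
  have hp2 : p.2 = 0 := by
    rw [← hκ] at hp
    by_contra h
    rw [Finsupp.mem_support_iff] at hp
    exact hp (pp_neg h)
  simp [hp2]

/-- the plain monomial of a multiset of sizes -/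
noncomputable def kap (k : ℕ) (s : Multiset ℕ) : Lt k →₀ ℕ :=
  Multiset.toFinsupp (s.map fun j => ((j, 0) : Lt k))

lemma kap_zero : kap k 0 = 0 := by
  simp [kap]

lemma kap_cons (j : ℕ) (s : Multiset ℕ) :
    kap k (j ::ₘ s) = Finsupp.single ((j, 0) : Lt k) 1 + kap k s := by
  unfold kap
  rw [Multiset.map_cons, ← Multiset.singleton_add, Multiset.toFinsupp_add,
    Multiset.toFinsupp_singleton]

lemma xs_kap (s : Multiset ℕ) : xs (kap k s) = s.sum := by
  induction s using Multiset.induction_on with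
  | empty => rw [kap_zero]; simp [xs]
  | cons j s ih => rw [kap_cons, xs_add, ih, Multiset.sum_cons]; simp [xs]

lemma pp_kap (s : Multiset ℕ) : pp (kap k s) = kap k s := by
  induction s using Multiset.induction_on with
  | empty =>
    rw [kap_zero]
    have := pp_add_cp (0 : Lt k →₀ ℕ)
    exact (add_eq_zero.mp this).1
  | cons j s ih =>
    rw [kap_cons, pp_add, ih]
    congr 1
    exact Finsupp.filter_single_of_pos _ rfl

lemma kap_inj {s s' : Multiset ℕ} (h : kap k s = kap k s') : s = s' := by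
  unfold kap at h
  have h1 := Multiset.toFinsupp.injective h
  have h2 := congrArg (Multiset.map Prod.fst) h1
  simpa [Multiset.map_map] using h2

lemma exists_kap {v : Lt k →₀ ℕ} (hv : pp v = v) (h1 : ∀ p ∈ v.support, 1 ≤ sz p) :
    ∃ s : Multiset ℕ, (∀ j ∈ s, 0 < j) ∧ kap k s = v := by
  have hp : ∀ p ∈ Finsupp.toMultiset v, p.2 = 0 ∧ 1 ≤ sz p := by
    intro p hp
    rw [Finsupp.mem_toMultiset] at hp
    refine ⟨?_, h1 p hp⟩
    rw [← hv] at hp
    by_contra h
    rw [Finsupp.mem_support_iff] at hp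
    exact hp (pp_neg h)
  refine ⟨(Finsupp.toMultiset v).map Prod.fst, ?_, ?_⟩
  · intro j hj
    obtain ⟨p, hp', rfl⟩ := Multiset.mem_map.mp hj
    obtain ⟨h2, h3⟩ := hp p hp'
    unfold sz at h3
    rw [h2] at h3
    simpa [Nat.pos_iff_ne_zero, Nat.one_le_iff_ne_zero] using h3
  · unfold kap
    rw [Multiset.map_map]
    have : (Finsupp.toMultiset v).map ((fun j => ((j, 0) : Lt k)) ∘ Prod.fst) =
        (Finsupp.toMultiset v).map id := by
      refine Multiset.map_congr rfl fun p hp' => ?_
      exact Prod.ext rfl (hp p hp').1.symm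
    rw [this, Multiset.map_id, Finsupp.toMultiset_toFinsupp]

/-- the index set of the slices -/
abbrev Ix (z : ℕ) : Type := Σ n : Fin (z + 1), Nat.Partition n

lemma gV_gEL {tau : Fin k → ℕ} {e : ℕ} {v : Lt k →₀ ℕ} (h : gV tau e v) :
    gEL tau (e : ℤ) v := by
  refine ⟨fun p hp => ?_, by rw [h.2.1], h.2.2⟩
  have hp2 : ¬ p.2 = 0 := by
    intro h0
    rw [← h.1, Finsupp.mem_support_iff] at hp
    exact hp (cp_neg h0)
  obtain ⟨i, hi⟩ := Function.ne_iff.mp hp2
  have : p.2 i ≤ ∑ i, p.2 i := Finset.single_le_sum (f := p.2) (fun _ _ => Nat.zero_le _)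
    (Finset.mem_univ i)
  unfold sz
  have h0 : p.2 i ≠ 0 := hi
  omega

lemma UH_mono {P Q : (Lt k →₀ ℕ) → Prop} (h : ∀ v, P v → Q v) : UH P ≤ UH Q :=
  fun _ hf => ⟨fun v hv => h v (hf.1 v hv), hf.2⟩

lemma sl_mem {tau : Fin k → ℕ} {z : ℕ} {f : Po k} (hf : f ∈ UH (gEL tau (z : ℤ))) (i : Ix z) :
    sl (kap k i.2.parts) f ∈ UH (gV tau (z - i.1)) := by
  refine ⟨fun v hv => ?_, fun r j hrj => by rw [EU_sl, hf.2 r j hrj, map_zero]⟩
  rw [coeff_sl (pp_kap _)] at hv
  split_ifs at hv with hc
  · obtain ⟨_, h2, h3⟩ := hf.1 _ hv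
    refine ⟨hc, ?_, fun j => ?_⟩
    · rw [xs_add, xs_kap, i.2.parts_sum] at h2
      push_cast at h2
      omega
    · rw [← h3 j, us_add, us_plain (pp_kap _), zero_add]
  · exact absurd rfl hv

/-- upper bound by the slices -/
lemma EL_le (tau : Fin k → ℕ) (z : ℕ) (hfd : ∀ e, FiniteDimensional ℂ (UH (gV tau e))) :
    EL tau (z : ℤ) ≤ ∑ i : Ix z, Module.finrank ℂ (UH (gV tau (z - i.1))) := by
  classical
  let Φ : UH (gEL tau (z : ℤ)) →ₗ[ℂ] (∀ i : Ix z, UH (gV tau (z - i.1))) :=
    LinearMap.pi fun i => (sl (kap k i.2.parts)).restrict fun _ hf => sl_mem hf i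
  have hinj : Function.Injective Φ := by
    rw [← LinearMap.ker_eq_bot, LinearMap.ker_eq_bot']
    intro f hf
    have h0 : ∀ i : Ix z, sl (kap k i.2.parts) (f : Po k) = 0 := by
      intro i
      have := congrFun hf i
      exact congrArg Subtype.val this
    apply Subtype.ext
    rw [ZeroMemClass.coe_zero]
    ext m
    rw [coeff_zero]
    by_contra hm
    obtain ⟨h1, h2, _⟩ := f.2.1 m hm
    have hpp : pp (pp m) = pp m := pp_pp m
    obtain ⟨s, hs, hks⟩ := exists_kap hpp (fun p hp => h1 p (by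
      rw [Finsupp.mem_support_iff] at hp ⊢
      intro h0
      apply hp
      by_cases hp2 : p.2 = 0
      · rw [pp_pos hp2, h0]
      · exact pp_neg hp2))
    have hsum : s.sum ≤ z := by
      have h3 : xs m = xs (pp m) + xs (cp m) := by rw [← xs_add, pp_add_cp]
      rw [← xs_kap (k := k), hks]
      omega
    have h4 := h0 ⟨⟨s.sum, by omega⟩, ⟨s, fun {j} hj => hs j hj, rfl⟩⟩
    simp only at h4
    rw [hks] at h4
    have h5 := congrArg (coeff (cp m)) h4
    rw [coeff_sl hpp, if_pos (cp_cp m), pp_add_cp, coeff_zero] at h5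
    exact hm h5
  have := hfd
  calc EL tau (z : ℤ) ≤ Module.finrank ℂ (∀ i : Ix z, UH (gV tau (z - i.1))) :=
        LinearMap.finrank_le_finrank_of_injective hinj
    _ = _ := Module.finrank_pi_fintype ℂ

/-- lower bound by the slices -/
lemma le_EL (tau : Fin k → ℕ) (z : ℕ) (hfd : ∀ e, FiniteDimensional ℂ (UH (gV tau e)))
    (hfe : FiniteDimensional ℂ (UH (gEL tau (z : ℤ)))) :
    ∑ i : Ix z, Module.finrank ℂ (UH (gV tau (z - i.1))) ≤ EL tau (z : ℤ) := by
  classical
  let Ψ₀ : (∀ i : Ix z, UH (gV tau (z - i.1))) →ₗ[ℂ] Po k :=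
    ∑ i : Ix z, (LinearMap.mulLeft ℂ (monomial (kap k i.2.parts) (1 : ℂ))) ∘ₗ
      (UH (gV tau (z - i.1))).subtype ∘ₗ LinearMap.proj i
  have hΨ₀ : ∀ g, Ψ₀ g = ∑ i : Ix z, monomial (kap k i.2.parts) (1 : ℂ) * (g i : Po k) := by
    intro g
    simp [Ψ₀]
  have hmem : ∀ g, Ψ₀ g ∈ UH (gEL tau (z : ℤ)) := by
    intro g
    rw [hΨ₀]
    refine Submodule.sum_mem _ fun i _ => ?_
    refine ⟨fun v hv => ?_, fun r j hrj => ?_⟩
    · rw [coeff_monomial_mul'] at hv
      split_ifs at hv with hle
      · rw [one_mul] at hv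
        have h1 := (g i).2.1 _ hv
        have h2 := gV_gEL h1
        have h3 : v = kap k i.2.parts + (v - kap k i.2.parts) := by
          rw [add_comm, tsub_add_cancel_of_le hle]
        refine ⟨fun p hp => ?_, ?_, fun j => ?_⟩
        · rw [h3] at hp
          rcases Finset.mem_union.mp (Finsupp.support_add hp) with hp | hp
          · have : p ∈ Finsupp.toMultiset (kap k i.2.parts) := by
              rwa [Finsupp.mem_toMultiset]
            rw [kap, Multiset.toFinsupp_toMultiset, Multiset.mem_map] at this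
            obtain ⟨j, hj, rfl⟩ := this
            have := i.2.parts_pos hj
            unfold sz
            simpa [Nat.pos_iff_ne_zero, Nat.one_le_iff_ne_zero] using this
          · exact h2.1 p hp
        · rw [h3, xs_add, xs_kap, i.2.parts_sum, h1.2.1]
          have := i.1.2
          push_cast
          omega
        · rw [h3, us_add, us_plain (pp_kap _), zero_add, h1.2.2 j]
      · exact absurd rfl hv
    · rw [EU_mul r j (pp_kap _), (g i).2.2 r j hrj, mul_zero]
  let Ψ : (∀ i : Ix z, UH (gV tau (z - i.1))) →ₗ[ℂ] UH (gEL tau (z : ℤ)) :=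
    Ψ₀.codRestrict _ hmem
  have hinj : Function.Injective Ψ := by
    rw [← LinearMap.ker_eq_bot, LinearMap.ker_eq_bot']
    intro g hg
    have hg0 : Ψ₀ g = 0 := congrArg Subtype.val hg
    funext i
    apply Subtype.ext
    have h1 : sl (kap k i.2.parts) (Ψ₀ g) = (g i : Po k) := by
      rw [hΨ₀, map_sum, Finset.sum_eq_single i]
      · rw [sl_mul (pp_kap _) _ fun v hv => ((g i).2.1 v hv).1, if_pos rfl]
      · intro j _ hj
        rw [sl_mul (pp_kap _) _ fun v hv => ((g j).2.1 v hv).1, if_neg]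
        intro h
        apply hj
        have hparts := kap_inj h
        obtain ⟨⟨n, hn⟩, π⟩ := i
        obtain ⟨⟨n', hn'⟩, π'⟩ := j
        simp only at hparts π π'
        have hnn : n' = n := by rw [← π'.parts_sum, ← π.parts_sum, hparts]
        subst hnn
        have : π' = π := Nat.Partition.ext hparts
        subst this
        rfl
      · intro h
        exact absurd (Finset.mem_univ i) h
    rw [hg0, map_zero] at h1
    exact h1.symm
  have := hfe
  calc ∑ i : Ix z, Module.finrank ℂ (UH (gV tau (z - i.1)))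
      = Module.finrank ℂ (∀ i : Ix z, UH (gV tau (z - i.1))) := by
        have := hfd
        exact (Module.finrank_pi_fintype ℂ).symm
    _ ≤ _ := LinearMap.finrank_le_finrank_of_injective hinj

lemma sum_Ix (z : ℕ) (F : ℕ → ℕ) :
    ∑ i : Ix z, F (z - i.1) =
      ∑ n ∈ Finset.range (z + 1), Fintype.card (Nat.Partition n) * F (z - n) := by
  rw [Fintype.sum_sigma, Finset.sum_range]
  refine Finset.sum_congr rfl fun n _ => ?_
  show ∑ _ : Nat.Partition n, F (z - n) = _
  rw [Finset.sum_const, Finset.card_univ, smul_eq_mul]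

/-- **Q8a** -/
theorem EL_eq (tau : Fin k → ℕ) (hfd : ∀ z : ℤ, FiniteDimensional ℂ (UH (gEL tau z))) (z : ℕ) :
    EL tau (z : ℤ) = ∑ n ∈ Finset.range (z + 1),
      Fintype.card (Nat.Partition n) * Module.finrank ℂ (UH (gV tau (z - n))) := by
  have h1 : ∀ e, FiniteDimensional ℂ (UH (gV tau e)) := fun e => by
    have := hfd e
    exact Submodule.finiteDimensional_of_le (UH_mono fun v => gV_gEL)
  rw [← sum_Ix z fun e => Module.finrank ℂ (UH (gV tau e))]
  exact le_antisymm (EL_le tau z h1) (le_EL tau z h1 (hfd _))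

/-- **Q8** -/
theorem q8 (h : FD) : Q8 := by
  intro k tau X K S z r hS hr hX
  have hfd : ∀ z : ℤ, FiniteDimensional ℂ (UH (gEL tau z)) := fun z => (h k 0 0 tau z).2.1
  have hc : ((z : ℤ) + r) = ((z + r : ℕ) : ℤ) := by push_cast; rfl
  rw [hc, EL_eq tau hfd, EL_eq tau hfd, Finset.mul_sum]
  calc ∑ n ∈ Finset.range (z + 1), X ^ K *
        (Fintype.card (Nat.Partition n) * Module.finrank ℂ (UH (gV tau (z - n))))
      ≤ ∑ n ∈ Finset.range (z + 1), Fintype.card (Nat.Partition (n + r)) *
          Module.finrank ℂ (UH (gV tau (z + r - (n + r)))) := by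
        refine Finset.sum_le_sum fun n hn => ?_
        rw [← mul_assoc, Nat.add_sub_add_right]
        refine Nat.mul_le_mul_right _ ?_
        refine H856.growth X K S n r hS hr ((Nat.mul_le_mul_left X ?_).trans hX)
        have := Finset.mem_range.mp hn
        omega
    _ = ∑ n ∈ (Finset.range (z + 1)).map (addRightEmbedding r),
          Fintype.card (Nat.Partition n) * Module.finrank ℂ (UH (gV tau (z + r - n))) := by
        rw [Finset.sum_map]
        rfl
    _ ≤ _ := by
        refine Finset.sum_le_sum_of_subset fun n hn => ?_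
        obtain ⟨m, hm, rfl⟩ := Finset.mem_map.mp hn
        rw [Finset.mem_range] at hm ⊢
        show m + r < z + r + 1
        omega

/-- **Q8m** -/
theorem q8m (h : FD) : Q8m := by
  intro k tau z
  have hp : pp (Finsupp.single ((1, 0) : Lt k) 1) = Finsupp.single ((1, 0) : Lt k) 1 :=
    Finsupp.filter_single_of_pos _ rfl
  let Φ₀ : Po k →ₗ[ℂ] Po k :=
    LinearMap.mulLeft ℂ (monomial (Finsupp.single ((1, 0) : Lt k) 1) (1 : ℂ))
  have hmem : ∀ f ∈ UH (gEL tau z), Φ₀ f ∈ UH (gEL tau (z + 1)) := by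
    intro f hf
    refine ⟨fun v hv => ?_, fun r j hrj => ?_⟩
    · rw [LinearMap.mulLeft_apply, coeff_monomial_mul'] at hv
      split_ifs at hv with hle
      · rw [one_mul] at hv
        obtain ⟨h1, h2, h3⟩ := hf.1 _ hv
        have h4 : v = Finsupp.single ((1, 0) : Lt k) 1 +
            (v - Finsupp.single ((1, 0) : Lt k) 1) := by
          rw [add_comm, tsub_add_cancel_of_le hle]
        refine ⟨fun p hp => ?_, ?_, fun j => ?_⟩
        · rw [h4] at hp
          rcases Finset.mem_union.mp (Finsupp.support_add hp) with hp | hp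
          · have hp' : p = ((1, 0) : Lt k) := by
              have := Finsupp.support_single_subset hp
              exact Finset.mem_singleton.mp this
            rw [hp']
            simp [sz]
          · exact h1 p hp
        · rw [h4, xs_add]
          have : xs (Finsupp.single ((1, 0) : Lt k) 1) = 1 := by simp [xs]
          rw [this]
          push_cast
          omega
        · rw [h4, us_add, us_plain hp, zero_add, h3 j]
      · exact absurd rfl hv
    · rw [LinearMap.mulLeft_apply, EU_mul r j hp, hf.2 r j hrj, mul_zero]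
  have := (h k 0 0 tau (z + 1)).2.1
  refine LinearMap.finrank_le_finrank_of_injective (f := Φ₀.restrict hmem) ?_
  intro f g hfg
  apply Subtype.ext
  have h1 : Φ₀ f = Φ₀ g := congrArg Subtype.val hfg
  rw [LinearMap.mulLeft_apply, LinearMap.mulLeft_apply] at h1
  refine mul_left_cancel₀ ?_ h1
  rw [Ne, monomial_eq_zero]
  exact one_ne_zero

end Vale.Agent.P181.GN.H787
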