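import Vale.Agent.P181.GN.H787.Num

/-!
Line GN, row Q9 (arithmetic), free of letters: the errors of Q5 and Q6 are at most one half of
the slack of Q7, by the growth Q8.
-/

namespace Vale.Agent.P181.GN.H787

/-- abstract comparison of the errors with the slack -/
theorem compare (a b m0 t w : ℕ) (EL : ℤ → ℕ) (SL E1 : ℕ → ℕ) (E3 : ℕ)
    (hw : w = m0 + t) (hw1 : 1 ≤ w) (ha : 1 ≤ a) (hab : a ≤ b)
    (hL : (10 : ℝ) ^ 16 * (1 + Real.log a) ^ 6 * w ≤ (a : ℝ) ^ 2) (ht : 32 * t ≤ a)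
    (h5 : ∀ y, a < y → y ≤ b → E1 y ≤ (w + 1) ^ 2 * EL ((m0 : ℤ) - 2 * y + 3 * t))
    (h6 : E3 ≤ (w + 2) ^ 6 * EL ((m0 : ℤ) + 6 * t + 4 * ((w / b : ℕ) : ℤ) - a - b))
    (h7 : ∀ y, a < y → y ≤ b → ∀ z : ℤ, z + y + t + 4 ≤ m0 → EL z ≤ 2 * (w + 2) ^ 4 * SL y)
    (h8 : ∀ (K S : ℕ) (z : ℤ), z ≤ w → (w + 3 * K * S) * (2 * K) ≤ S ^ 2 →
      2 ^ K * EL z ≤ EL (z + (3 * K * S : ℕ))) :
    (∀ y, a < y → y ≤ b → 2 * E1 y ≤ SL y) ∧ (a < b → 2 * E3 ≤ SL (a + 1)) := by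
  obtain ⟨K, S, hK, hS, hr, ha8, haw⟩ := exists_KS a w hw1 ha hL
  have hwpos : 0 < 2 * (w + 2) ^ 4 := by positivity
  have key : ∀ (y : ℕ), a < y → y ≤ b → ∀ (e : ℕ) (z : ℤ) (p : ℕ), p ≤ 6 → z ≤ w →
      e ≤ (w + 2) ^ p * EL z → z + (3 * K * S : ℕ) + y + t + 4 ≤ m0 → 2 * e ≤ SL y := by
    intro y hy1 hy2 e z p hp hz he hzz
    have h1 := h8 K S z hz hS
    have h2 := h7 y hy1 hy2 (z + (3 * K * S : ℕ)) hzz
    have h3 : 2 ^ K * EL z ≤ 2 * (w + 2) ^ 4 * SL y := h1.trans h2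
    have h4 : (w + 2) ^ p ≤ (w + 2) ^ 6 := Nat.pow_le_pow_right (by omega) hp
    have h5' : 2 * (w + 2) ^ 4 * (2 * e) ≤ 2 * (w + 2) ^ 4 * SL y := by
      calc 2 * (w + 2) ^ 4 * (2 * e) ≤ 2 * (w + 2) ^ 4 * (2 * ((w + 2) ^ 6 * EL z)) := by
            gcongr
            exact he.trans (Nat.mul_le_mul_right _ h4)
        _ = 4 * (w + 2) ^ 10 * EL z := by ring
        _ ≤ 2 ^ K * EL z := Nat.mul_le_mul_right _ hK
        _ ≤ _ := h3
    exact Nat.le_of_mul_le_mul_left h5' hwpos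
  refine ⟨?_, ?_⟩
  · intro y hy1 hy2
    refine key y hy1 hy2 (E1 y) ((m0 : ℤ) - 2 * y + 3 * t) 2 (by norm_num) ?_ ?_ ?_
    · subst hw; push_cast; omega
    · refine (h5 y hy1 hy2).trans (Nat.mul_le_mul_right _ ?_)
      exact Nat.pow_le_pow_left (by omega) 2
    · omega
  · intro hlt
    have hwb : 4 * (w / b) ≤ a / 32 := by
      have hb : 0 < b := by omega
      have h1 : w / b ≤ a / 128 := by
        refine (Nat.div_le_div_left hab ha).trans ?_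
        rw [Nat.div_le_iff_le_mul_add_pred (by omega)]
        have h3 : a < 128 * (a / 128 + 1) := by omega
        have h2 : 10 ^ 16 * w ≤ a * a := by rw [← sq]; exact haw
        nlinarith
      omega
    generalize hq : w / b = q at h6 hwb
    have ha32 : a / 32 ≤ a / 32 := le_rfl
    refine key (a + 1) (by omega) (by omega) E3
      ((m0 : ℤ) + 6 * t + 4 * (q : ℤ) - a - b) 6 le_rfl ?_ h6 ?_
    · clear hq
      omega
    · clear hq
      generalize 3 * K * S = r at hr ⊢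
      push_cast
      omega

/-- the same with the sum over `y` -/
theorem compare_sum (a b : ℕ) (SL E1 : ℕ → ℕ) (E3 : ℕ) (hab : a ≤ b)
    (h1 : ∀ y, a < y → y ≤ b → 2 * E1 y ≤ SL y) (h3 : a < b → 2 * E3 ≤ SL (a + 1))
    (h0 : a = b → E3 = 0) :
    ∑ y ∈ Finset.Ioc a b, E1 y + E3 ≤ ∑ y ∈ Finset.Ioc a b, SL y := by
  rcases hab.eq_or_lt with rfl | hlt
  · simp [h0 rfl]
  · have hs : ∑ y ∈ Finset.Ioc a b, 2 * E1 y ≤ ∑ y ∈ Finset.Ioc a b, SL y :=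
      Finset.sum_le_sum fun y hy => by
        rw [Finset.mem_Ioc] at hy
        exact h1 y hy.1 hy.2
    have hm : SL (a + 1) ≤ ∑ y ∈ Finset.Ioc a b, SL y :=
      Finset.single_le_sum (f := SL) (fun _ _ => Nat.zero_le _)
        (Finset.mem_Ioc.2 ⟨Nat.lt_succ_self a, hlt⟩)
    rw [← Finset.mul_sum] at hs
    have := h3 hlt
    omega

end Vale.Agent.P181.GN.H787
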