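import Mathlib

/-!
# P181 line GN, row Q9: the numbers (helper787)

Letter-free part: the choice of the parameters `K`, `S` (with `X = 2`).
-/

namespace Vale.Agent.P181.GN.H787

/-- `S = 6 K ^ 2 + s`, `2 K w ≤ s ^ 2`: then `(w + 3 K S) * 2 K ≤ S ^ 2`. -/
theorem choice (w K s : ℕ) (hs : 2 * K * w ≤ s ^ 2) :
    (w + 3 * K * (6 * K ^ 2 + s)) * (2 * K) ≤ (6 * K ^ 2 + s) ^ 2 := by
  nlinarith [Nat.zero_le (K ^ 2 * s)]

theorem log2_le (a w : ℕ) (hw : 1 ≤ w) (h : (w : ℝ) ≤ (a : ℝ) ^ 2) (ha : 1 ≤ a) :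
    ((Nat.log 2 (w + 2) : ℕ) : ℝ) ≤ 3 * (1 + Real.log a) := by
  have h1 : (2 : ℝ) ^ (Nat.log 2 (w + 2)) ≤ (w : ℝ) + 2 := by
    have := Nat.pow_log_le_self 2 (x := w + 2) (by omega)
    exact_mod_cast this
  have hw' : (1 : ℝ) ≤ w := by exact_mod_cast hw
  have h2 : (2 : ℝ) ^ (Nat.log 2 (w + 2)) ≤ 3 * (a : ℝ) ^ 2 := by linarith
  have h3 := Real.log_le_log (by positivity) h2
  have ha' : (0 : ℝ) < a := by exact_mod_cast ha
  rw [Real.log_pow, Real.log_mul (by norm_num) (by positivity), Real.log_pow] at h3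
  have h4 : (0.6931 : ℝ) < Real.log 2 := by linarith [Real.log_two_gt_d9]
  have h5 : Real.log 3 ≤ 2 * Real.log 2 := by
    rw [← Real.log_rpow (by norm_num)]
    apply Real.log_le_log (by norm_num)
    norm_num
  have h6 : Real.log 2 < 0.6932 := by linarith [Real.log_two_lt_d9]
  have hl : 0 ≤ Real.log a := Real.log_nonneg (by exact_mod_cast ha)
  push_cast at h3
  set n : ℝ := ((Nat.log 2 (w + 2) : ℕ) : ℝ)
  have hn : 0 ≤ n := by positivity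
  by_contra hcon
  push Not at hcon
  nlinarith

/-- The parameters: `C = 10 ^ 16`, `c = 6`. -/
theorem exists_KS (a w : ℕ) (hw : 1 ≤ w) (ha : 1 ≤ a)
    (h : (10 : ℝ) ^ 16 * (1 + Real.log a) ^ 6 * w ≤ (a : ℝ) ^ 2) :
    ∃ K S : ℕ, 4 * (w + 2) ^ 10 ≤ 2 ^ K ∧ (w + 3 * K * S) * (2 * K) ≤ S ^ 2 ∧
      2 * (3 * K * S) ≤ a ∧ 10 ^ 8 ≤ a ∧ 10 ^ 16 * w ≤ a ^ 2 := by
  have hl : 0 ≤ Real.log a := Real.log_nonneg (by exact_mod_cast ha)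
  set l : ℝ := 1 + Real.log a with hl1
  have hl' : 1 ≤ l := by linarith
  have hw' : (1 : ℝ) ≤ w := by exact_mod_cast hw
  have ha' : (1 : ℝ) ≤ a := by exact_mod_cast ha
  have hl6 : 1 ≤ l ^ 6 := one_le_pow₀ hl'
  have hwa : (10 : ℝ) ^ 16 * w ≤ (a : ℝ) ^ 2 := by
    refine le_trans ?_ h
    have : (10 : ℝ) ^ 16 * 1 * w ≤ (10 : ℝ) ^ 16 * l ^ 6 * w := by gcongr
    linarith
  have hwN : 10 ^ 16 * w ≤ a ^ 2 := by exact_mod_cast hwa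
  have ha8 : 10 ^ 8 ≤ a := by
    by_contra hc
    push Not at hc
    have : a ^ 2 < 10 ^ 16 := by
      calc a ^ 2 < (10 ^ 8) ^ 2 := Nat.pow_lt_pow_left hc (by norm_num)
        _ = 10 ^ 16 := by norm_num
    nlinarith
  -- `a ≥ 10 ^ 8 l ^ 3`
  have hal : (10 : ℝ) ^ 8 * l ^ 3 ≤ a := by
    have h1 : ((10 : ℝ) ^ 8 * l ^ 3) ^ 2 ≤ (a : ℝ) ^ 2 := by
      calc ((10 : ℝ) ^ 8 * l ^ 3) ^ 2 = (10 : ℝ) ^ 16 * l ^ 6 * 1 := by ring
        _ ≤ (10 : ℝ) ^ 16 * l ^ 6 * w := by gcongr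
        _ ≤ _ := h
    exact le_of_sq_le_sq h1 (by positivity) |> fun h => h
  have hlog := log2_le a w hw (by linarith [hwa, mul_nonneg (show (0 : ℝ) ≤ 10 ^ 16 - 1 by norm_num) (le_trans zero_le_one hw')]) ha
  set n := Nat.log 2 (w + 2) with hn
  set K := 12 + 10 * n with hK
  have hKr : (K : ℝ) ≤ 42 * l := by
    have : (K : ℝ) = 12 + 10 * (n : ℝ) := by rw [hK]; push_cast; ring
    rw [this]
    nlinarith
  have hpow : 4 * (w + 2) ^ 10 ≤ 2 ^ K := by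
    have h1 : w + 2 ≤ 2 ^ (n + 1) := (Nat.lt_pow_succ_log_self (by norm_num) (w + 2)).le
    calc 4 * (w + 2) ^ 10 ≤ 4 * (2 ^ (n + 1)) ^ 10 := by gcongr
      _ = 2 ^ K := by rw [hK, ← pow_mul, show (4 : ℕ) = 2 ^ 2 from rfl, ← pow_add]; congr 1; ring
  set s := Nat.sqrt (2 * K * w) + 1 with hs
  have hs2 : 2 * K * w ≤ s ^ 2 := by
    have := Nat.lt_succ_sqrt (2 * K * w)
    rw [hs, pow_two]
    exact this.le
  refine ⟨K, 6 * K ^ 2 + s, hpow, choice w K s hs2, ?_, ha8, hwN⟩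
  -- `6 K (6 K ^ 2 + s) ≤ a`
  have hsr : (s : ℝ) ≤ Real.sqrt (2 * K * w) + 1 := by
    rw [hs]
    push_cast
    have : ((Nat.sqrt (2 * K * w) : ℕ) : ℝ) ≤ Real.sqrt (((2 * K * w : ℕ) : ℝ)) := Real.nat_sqrt_le_real_sqrt
    push_cast at this
    linarith
  have hK0 : (0 : ℝ) ≤ K := by positivity
  have hl3 : 1 ≤ l ^ 3 := one_le_pow₀ hl'
  -- `K * sqrt (2 K w) ≤ a / 50`
  have hsq : (K : ℝ) * Real.sqrt (2 * K * w) ≤ a / 50 := by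
    have h1 : ((K : ℝ) * Real.sqrt (2 * K * w)) ^ 2 ≤ ((a : ℝ) / 50) ^ 2 := by
      rw [mul_pow, Real.sq_sqrt (by positivity)]
      have hK3 : (K : ℝ) ^ 3 ≤ (42 * l) ^ 3 := by gcongr
      have : (K : ℝ) ^ 2 * (2 * K * w) = 2 * K ^ 3 * w := by ring
      rw [this]
      have hA : 2 * (K : ℝ) ^ 3 * w ≤ 2 * (42 * l) ^ 3 * w := by gcongr
      have hB : 2 * (42 * l) ^ 3 * (w : ℝ) ≤ (10 : ℝ) ^ 16 * l ^ 6 * w / 2500 := by
        have : l ^ 3 ≤ l ^ 6 := pow_le_pow_right₀ hl' (by norm_num)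
        have hw0 : (0 : ℝ) ≤ w := by linarith
        have : l ^ 3 * w ≤ l ^ 6 * w := by gcongr
        nlinarith
      calc 2 * (K : ℝ) ^ 3 * w ≤ (10 : ℝ) ^ 16 * l ^ 6 * w / 2500 := hA.trans hB
        _ ≤ (a : ℝ) ^ 2 / 2500 := by gcongr
        _ = ((a : ℝ) / 50) ^ 2 := by ring
    exact le_of_sq_le_sq h1 (by positivity) |> fun h => h
  have hK3 : (K : ℝ) ^ 3 ≤ 74088 * l ^ 3 := by
    have : (K : ℝ) ^ 3 ≤ (42 * l) ^ 3 := by gcongr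
    calc (K : ℝ) ^ 3 ≤ (42 * l) ^ 3 := this
      _ = 74088 * l ^ 3 := by ring
  have hK1 : (K : ℝ) ≤ 42 * l ^ 3 := by
    have : l ≤ l ^ 3 := le_self_pow₀ hl' (by norm_num)
    linarith
  have hfin : (2 * (3 * K * (6 * K ^ 2 + s)) : ℝ) ≤ a := by
    have e : (2 * (3 * K * (6 * K ^ 2 + s)) : ℝ) = 36 * K ^ 3 + 6 * (K * s) := by ring
    rw [e]
    have : (K : ℝ) * s ≤ K * Real.sqrt (2 * K * w) + K := by nlinarith
    nlinarith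
  exact_mod_cast hfin

end Vale.Agent.P181.GN.H787
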